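import Vale.Agent.P042.WG.Spec
import Vale.Agent.P042.WA.W1.Main
set_option autoImplicit false

/-! G1: the irreducible factor of `h(X) + h(Y)` through the branch `Y - r = ζ (X - r) + ...`
at a multiple root, by initial forms. -/

namespace Vale.Agent.P042.WG

open Polynomial

namespace G1P

section field

variable {K : Type} [Field K]

/-- substitution `X ↦ r + T`, `Y ↦ r + T y` -/
noncomputable def psi (r : K) : K[X][X] →+* K[X][X] :=
  eval₂RingHom ((C : K[X] →+* K[X][X]).comp (eval₂RingHom (C : K →+* K[X]) (X + C r)))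
    (C (C r) + C X * X)

/-- evaluation at `T = 0` -/
noncomputable def E : K[X][X] →+* K[X] := mapRingHom (evalRingHom 0)

lemma E_eq_zero_iff (P : K[X][X]) : E P = 0 ↔ (C X : K[X][X]) ∣ P := by
  rw [C_dvd_iff_dvd_coeff]
  constructor
  · intro h i
    have h1 := congrArg (fun Q : K[X] => Q.coeff i) h
    simp only [E, coe_mapRingHom, coeff_map, coeff_zero, coe_evalRingHom] at h1
    rw [X_dvd_iff, coeff_zero_eq_eval_zero]
    exact h1
  · intro h
    ext i
    have h1 := h i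
    rw [X_dvd_iff, coeff_zero_eq_eval_zero] at h1
    simp only [E, coe_mapRingHom, coeff_map, coeff_zero, coe_evalRingHom]
    exact h1

/-- `g` is the initial form of `F` -/
def In (r : K) (F : K[X][X]) (g : K[X]) : Prop :=
  ∃ (e : ℕ) (A : K[X][X]), psi r F = (C X) ^ e * A ∧ E A = g ∧ g ≠ 0

lemma In.mul {r : K} {F G : K[X][X]} {f g : K[X]} (hF : In r F f) (hG : In r G g) :
    In r (F * G) (f * g) := by
  obtain ⟨e, A, h1, h2, h3⟩ := hF
  obtain ⟨e', A', h1', h2', h3'⟩ := hG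
  refine ⟨e + e', A * A', ?_, ?_, mul_ne_zero h3 h3'⟩
  · rw [map_mul, h1, h1']; ring
  · rw [map_mul, h2, h2']

lemma cancel_aux {a b : ℕ} {A B : K[X][X]} (hab : a ≤ b)
    (h : (C X : K[X][X]) ^ a * A = (C X) ^ b * B) (hA : E A ≠ 0) : A = B := by
  have hT : (C X : K[X][X]) ≠ 0 := by
    rw [Ne, C_eq_zero]; exact X_ne_zero
  obtain ⟨c, rfl⟩ := Nat.exists_eq_add_of_le hab
  rw [pow_add, mul_assoc] at h
  have h1 := mul_left_cancel₀ (pow_ne_zero a hT) h
  rcases Nat.eq_zero_or_pos c with hc | hc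
  · rw [h1, hc, pow_zero, one_mul]
  · exfalso
    apply hA
    rw [E_eq_zero_iff, h1]
    exact (dvd_pow_self _ (by omega)).mul_right _

lemma In.unique {r : K} {F : K[X][X]} {f g : K[X]} (hF : In r F f) (hG : In r F g) :
    f = g := by
  obtain ⟨e, A, h1, h2, h3⟩ := hF
  obtain ⟨e', A', h1', h2', h3'⟩ := hG
  rw [h1] at h1'
  have : A = A' := by
    rcases le_total e e' with h | h
    · exact cancel_aux h h1' (by rw [h2]; exact h3)
    · exact (cancel_aux h h1'.symm (by rw [h2']; exact h3')).symm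
  rw [← h2, ← h2', this]

lemma exists_In_of_ne {r : K} {F : K[X][X]} (hF : psi r F ≠ 0) : ∃ g, In r F g := by
  have hT : Irreducible (C X : K[X][X]) := (prime_C_iff.mpr prime_X).irreducible
  obtain ⟨n, a, ha, hn⟩ := WfDvdMonoid.max_power_factor hF hT
  refine ⟨E a, n, a, hn, rfl, ?_⟩
  rw [Ne, E_eq_zero_iff]
  exact ha

lemma exists_In_of_dvd {r : K} {F P : K[X][X]} {g : K[X]} (hP : In r P g) (hF : F ∣ P) :
    ∃ f, In r F f := by
  apply exists_In_of_ne
  obtain ⟨e, A, h1, h2, h3⟩ := hP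
  have hT : (C X : K[X][X]) ≠ 0 := by
    rw [Ne, C_eq_zero]; exact X_ne_zero
  have hA : A ≠ 0 := by
    intro h0
    rw [h0, map_zero] at h2
    exact h3 h2.symm
  have hP0 : psi r P ≠ 0 := by
    rw [h1]; exact mul_ne_zero (pow_ne_zero _ hT) hA
  obtain ⟨Q, rfl⟩ := hF
  rw [map_mul] at hP0
  exact left_ne_zero_of_mul hP0

lemma psi_CC (r c : K) : psi r (C (C c)) = C (C c) := by
  simp [psi]

lemma In_unit {r ζ : K} {u : K[X][X]} {g : K[X]} (hu : IsUnit u) (h : In r u g) :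
    g.eval ζ ≠ 0 := by
  obtain ⟨v, hv, hv'⟩ := isUnit_iff.mp hu
  obtain ⟨c, hc, hc'⟩ := isUnit_iff.mp hv
  have h1 : In r u (C c) := by
    refine ⟨0, C (C c), ?_, ?_, ?_⟩
    · rw [← hv', ← hc', psi_CC, pow_zero, one_mul]
    · simp [E]
    · rw [Ne, C_eq_zero]
      exact hc.ne_zero
  rw [h.unique h1, eval_C]
  exact hc.ne_zero

/-- an irreducible factor whose initial form vanishes at `ζ` -/
lemma exists_irr {r ζ : K} (P : K[X][X]) (hP0 : P ≠ 0) :
    (∃ g, In r P g ∧ g.eval ζ = 0) →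
      ∃ G, Irreducible G ∧ G ∣ P ∧ ∃ g, In r G g ∧ g.eval ζ = 0 := by
  revert hP0
  refine WfDvdMonoid.induction_on_irreducible P ?_ ?_ ?_
  · intro h; exact absurd rfl h
  · rintro u hu - ⟨g, hg, hg0⟩
    exact absurd hg0 (In_unit hu hg)
  · rintro a i ha hi ih - ⟨g, hg, hg0⟩
    obtain ⟨f₁, hf₁⟩ := exists_In_of_dvd hg (dvd_mul_right i a)
    obtain ⟨f₂, hf₂⟩ := exists_In_of_dvd hg (dvd_mul_left a i)
    have h1 := hg.unique (hf₁.mul hf₂)
    rw [h1, eval_mul, mul_eq_zero] at hg0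
    rcases hg0 with h2 | h2
    · exact ⟨i, hi, dvd_mul_right i a, f₁, hf₁, h2⟩
    · obtain ⟨G, hG1, hG2, hG3⟩ := ih ha ⟨f₂, hf₂, h2⟩
      exact ⟨G, hG1, hG2.trans (dvd_mul_left a i), hG3⟩

lemma psi_C (r : K) (h : K[X]) : psi r (C h) = C (h.comp (X + C r)) := by
  simp only [psi, coe_eval₂RingHom, eval₂_C, RingHom.coe_comp, Function.comp_apply]
  rfl

lemma psi_map (r : K) (h : K[X]) : psi r (h.map C) = h.eval₂ (C.comp C) (C (C r) + C X * X) := by
  simp only [psi, coe_eval₂RingHom, eval₂_map]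
  congr 1
  ext1 a
  simp

/-- the initial form of `h(X) + h(Y)` -/
lemma In_HH {r : K} {m : ℕ} {q : K[X]} (hq : q.eval r ≠ 0) (hm : 1 ≤ m) :
    In r (WA.HH ((X - C r) ^ m * q)) (C (q.eval r) * (1 + X ^ m)) := by
  refine ⟨m, C (q.comp (X + C r)) + X ^ m * (q.eval₂ (C.comp C) (C (C r) + C X * X)), ?_, ?_, ?_⟩
  · rw [WA.HH, map_add, psi_C, psi_map, mul_comp, pow_comp, sub_comp, X_comp, C_comp,
      add_sub_cancel_right, eval₂_mul, eval₂_pow, eval₂_sub, eval₂_X, eval₂_C]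
    simp only [RingHom.coe_comp, Function.comp_apply, add_sub_cancel_left, map_mul, map_pow]
    ring
  · have h1 : E (q.eval₂ (C.comp C) (C (C r) + C X * X)) = C (q.eval r) := by
      rw [hom_eval₂]
      have h2 : E ((C (C r) : K[X][X]) + C X * X) = C r := by simp [E]
      have h3 : (E : K[X][X] →+* K[X]).comp (C.comp C) = C := by
        ext1 a
        simp [E]
      rw [h2, h3, eval₂_hom]
    have h4 : E (C (q.comp (X + C r))) = C (q.eval r) := by
      simp [E, eval_comp]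
    have h5 : E (X ^ m : K[X][X]) = X ^ m := by simp [E]
    rw [map_add, map_mul, h1, h4, h5]
    ring
  · intro h0
    have h1 := congrArg (fun P : K[X] => P.eval 0) h0
    simp only [eval_mul, eval_C, eval_add, eval_one, eval_pow, eval_X, eval_zero] at h1
    rw [zero_pow (by omega), add_zero, mul_one] at h1
    exact hq h1

/-- uniqueness of the factor -/
lemma uniq {r ζ : K} {m : ℕ} {q : K[X]} (hq : q.eval r ≠ 0) (hm : 1 ≤ m) (hmK : (m : K) ≠ 0)
    (hζ : ζ ^ m = -1) {G₁ G₂ : K[X][X]} (h1 : Irreducible G₁) (h2 : Irreducible G₂)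
    (d1 : G₁ ∣ WA.HH ((X - C r) ^ m * q)) (d2 : G₂ ∣ WA.HH ((X - C r) ^ m * q))
    (e1 : ∃ g, In r G₁ g ∧ g.eval ζ = 0) (e2 : ∃ g, In r G₂ g ∧ g.eval ζ = 0) :
    Associated G₁ G₂ := by
  by_contra hna
  have hIn := In_HH hq hm
  obtain ⟨Q, hQ⟩ := d1
  have p2 : Prime G₂ := h2.prime
  have hd : G₂ ∣ Q := by
    rw [hQ] at d2
    rcases p2.dvd_or_dvd d2 with h | h
    · exact absurd ((h2.associated_of_dvd h1 h).symm) hna
    · exact h
  obtain ⟨Q', hQ'⟩ := hd
  obtain ⟨g₁, i1, z1⟩ := e1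
  obtain ⟨g₂, i2, z2⟩ := e2
  have hQd : Q' ∣ WA.HH ((X - C r) ^ m * q) := by
    rw [hQ, hQ']
    exact (dvd_mul_left _ _).trans (dvd_mul_left _ _)
  obtain ⟨g₃, i3⟩ := exists_In_of_dvd hIn hQd
  have h3 : In r (WA.HH ((X - C r) ^ m * q)) (g₁ * (g₂ * g₃)) := by
    rw [hQ, hQ']
    exact i1.mul (i2.mul i3)
  have h4 := congrArg (fun P : K[X] => (derivative P).eval ζ) (hIn.unique h3)
  simp only [derivative_mul, derivative_C, zero_mul, zero_add, derivative_add, derivative_one,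
    derivative_X_pow, eval_add, eval_mul, eval_C, eval_pow, eval_X, z1, z2,
    mul_zero, add_zero] at h4
  have hζ0 : ζ ≠ 0 := by
    rintro rfl
    rw [zero_pow (by omega)] at hζ
    exact one_ne_zero (by linear_combination hζ : (1 : K) = 0)
  exact mul_ne_zero hq (mul_ne_zero hmK (pow_ne_zero _ hζ0)) h4

/-- existence of a monic factor -/
lemma exists_factor {r ζ : K} {m : ℕ} {q : K[X]} (hq : q.eval r ≠ 0) (hm : 1 ≤ m)
    (hζ : ζ ^ m = -1) :
    ∃ G : K[X][X], G.Monic ∧ Irreducible G ∧ G ∣ WA.HH ((X - C r) ^ m * q) ∧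
      ∃ g, In r G g ∧ g.eval ζ = 0 := by
  classical
  set h : K[X] := (X - C r) ^ m * q with hh
  have hq0 : q ≠ 0 := by
    rintro rfl
    rw [eval_zero] at hq
    exact hq rfl
  have hk : 1 ≤ h.natDegree := by
    rw [hh, natDegree_mul (pow_ne_zero _ (X_sub_C_ne_zero r)) hq0, natDegree_pow,
      natDegree_X_sub_C]
    omega
  have hIn : In r (WA.HH h) (C (q.eval r) * (1 + X ^ m)) := In_HH hq hm
  obtain ⟨G, hirr, hdvd, g, hg, hg0⟩ := exists_irr (r := r) (ζ := ζ) (WA.HH h)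
    (WA.W1P.HH_ne_zero hk) ⟨_, hIn, by
      rw [eval_mul, eval_add, eval_one, eval_pow, eval_X, hζ]; ring⟩
  have hlu : IsUnit G.leadingCoeff := by
    obtain ⟨Q, hQ⟩ := hdvd
    have h1 : G.leadingCoeff * Q.leadingCoeff = C h.leadingCoeff := by
      rw [← leadingCoeff_mul, ← hQ, WA.W1P.leadingCoeff_HH hk]
    have h2 : IsUnit (C h.leadingCoeff) := by
      rw [isUnit_C, isUnit_iff_ne_zero, Ne, leadingCoeff_eq_zero]
      intro h0
      rw [h0] at hk
      simp at hk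
    exact isUnit_of_mul_isUnit_left (h1 ▸ h2)
  obtain ⟨u, hu⟩ := hlu
  have hau : Associated G (C (↑u⁻¹ : K[X]) * G) :=
    ⟨(u⁻¹).map (C : K[X] →+* K[X][X]).toMonoidHom, by
      rw [mul_comm]; rfl⟩
  have hd' : (C (↑u⁻¹ : K[X]) * G) ∣ WA.HH h := hau.dvd_iff_dvd_left.mp hdvd
  have hd'' : (C (↑u⁻¹ : K[X])) ∣ WA.HH h := (dvd_mul_right _ _).trans hd'
  obtain ⟨f, hf⟩ := exists_In_of_dvd hIn hd''
  refine ⟨C (↑u⁻¹ : K[X]) * G, ?_, hau.irreducible hirr, hd', f * g, hf.mul hg, ?_⟩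
  · rw [Monic, leadingCoeff_mul, leadingCoeff_C, ← hu]
    exact u.inv_mul
  · rw [eval_mul, hg0, mul_zero]

/-- the initial form under a field endomorphism -/
lemma In.map {r : K} {F : K[X][X]} {g : K[X]} (σ : K →+* K) (hr : σ r = r) (h : In r F g) :
    In r (WA.mapXY σ F) (g.map σ) := by
  obtain ⟨e, A, h1, h2, h3⟩ := h
  refine ⟨e, WA.mapXY σ A, ?_, ?_, ?_⟩
  · have h4 : (psi r).comp (mapRingHom (mapRingHom σ)) =
        (mapRingHom (mapRingHom σ)).comp (psi r) := by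
      ext <;> simp [psi, hr]
    have h5 : psi r (WA.mapXY σ F) = WA.mapXY σ (psi r F) :=
      congrArg (fun f : K[X][X] →+* K[X][X] => f F) h4
    rw [h5, h1, WA.mapXY, WA.mapXY, Polynomial.map_mul, Polynomial.map_pow, map_C,
      coe_mapRingHom, map_X]
  · have h4 : (E : K[X][X] →+* K[X]).comp (mapRingHom (mapRingHom σ)) =
        (mapRingHom σ).comp E := by
      ext <;> simp [E]
    have h5 : E (WA.mapXY σ A) = (E A).map σ :=
      congrArg (fun f : K[X][X] →+* K[X] => f A) h4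
    rw [h5, h2]
  · exact (Polynomial.map_ne_zero_iff σ.injective).mpr h3

end field

end G1P

/-- block G1 -/
theorem g1 : G1 := by
  intro p _ h r ζ m hh0 hkp hmr hm hζ
  set ι := algebraMap (ZMod p) (AlgebraicClosure (ZMod p)) with hι
  have hιinj : Function.Injective ι := ι.injective
  obtain ⟨q, hq, hqd⟩ := exists_eq_pow_rootMultiplicity_mul_and_not_dvd h hh0 r
  rw [hmr] at hq
  have hq0 : q.eval r ≠ 0 := by
    intro h0
    exact hqd (dvd_iff_isRoot.mpr h0)
  have hmk : m ≤ h.natDegree := by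
    have h1 := natDegree_le_of_dvd (Dvd.intro _ hq.symm) hh0
    rwa [natDegree_pow, natDegree_X_sub_C, mul_one] at h1
  have hk : 1 ≤ h.natDegree := hm.trans hmk
  have hmap : h.map ι = (X - C (ι r)) ^ m * q.map ι := by
    conv_lhs => rw [hq]
    rw [Polynomial.map_mul, Polynomial.map_pow, Polynomial.map_sub, map_X, map_C]
  have hq1 : (q.map ι).eval (ι r) ≠ 0 := by
    rw [eval_map, eval₂_hom]
    intro h0
    exact hq0 ((map_eq_zero_iff _ hιinj).mp h0)
  have hζ1 : (ι ζ) ^ m = -1 := by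
    rw [← map_pow, hζ, map_neg, map_one]
  have hmK : (m : AlgebraicClosure (ZMod p)) ≠ 0 := by
    have : CharP (AlgebraicClosure (ZMod p)) p := inferInstance
    rw [Ne, CharP.cast_eq_zero_iff (AlgebraicClosure (ZMod p)) p]
    intro hd
    have := Nat.le_of_dvd hm hd
    omega
  obtain ⟨G, hGm, hGi, hGd, hG0⟩ := G1P.exists_factor hq1 hm hζ1
  -- Frobenius
  have hfr : ι r ^ p = ι r := by rw [← map_pow, ZMod.pow_card]
  have hfz : ι ζ ^ p = ι ζ := by rw [← map_pow, ZMod.pow_card]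
  set φ := frobeniusEquiv (AlgebraicClosure (ZMod p)) p with hφ
  have hφ' : (φ : AlgebraicClosure (ZMod p) →+* AlgebraicClosure (ZMod p)) =
      frobenius (AlgebraicClosure (ZMod p)) p := rfl
  rw [← hmap] at hGd
  have hHH : WA.mapXY (frobenius (AlgebraicClosure (ZMod p)) p) (WA.HH (h.map ι)) =
      WA.HH (h.map ι) := by
    rw [WA.W1P.mapXY_HH, Polynomial.map_map]
    congr 2
    exact Subsingleton.elim _ _
  -- the conjugate factor
  have hGφ : Associated (WA.mapXY (frobenius (AlgebraicClosure (ZMod p)) p) G) G := by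
    apply G1P.uniq hq1 hm hmK hζ1 _ hGi _ _ _ hG0
    · rw [← hφ', ← WA.W1P.mapXYEquiv_apply]
      exact (MulEquiv.irreducible_iff (WA.W1P.mapXYEquiv φ)).mpr hGi
    · rw [← hmap, ← hHH]
      obtain ⟨Q, hQ⟩ := hGd
      exact ⟨WA.mapXY _ Q, by rw [hQ, WA.mapXY, WA.mapXY, WA.mapXY, Polynomial.map_mul]⟩
    · rw [← hmap]; exact hGd
    · obtain ⟨g, hg, hg0⟩ := hG0
      refine ⟨_, hg.map (frobenius (AlgebraicClosure (ZMod p)) p) hfr, ?_⟩
      have h1 : ((g.map (frobenius (AlgebraicClosure (ZMod p)) p))).eval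
          ((frobenius (AlgebraicClosure (ZMod p)) p) (ι ζ)) = 0 := by
        rw [eval_map, eval₂_hom, hg0, map_zero]
      rw [frobenius_def, hfz] at h1
      exact h1
  have hGφm : (WA.mapXY (frobenius (AlgebraicClosure (ZMod p)) p) G).Monic := hGm.map _
  have hGeq : WA.mapXY (frobenius (AlgebraicClosure (ZMod p)) p) G = G :=
    eq_of_monic_of_associated hGφm hGm hGφ
  obtain ⟨F, hFm, hFG⟩ := WA.W1P.frob_fixed p G hGm hGeq
  have hinj2 : Function.Injective (mapRingHom ι) := map_injective _ hιinj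
  have hdvd : F ∣ WA.HH h := by
    rw [← map_dvd_map (mapRingHom ι) hinj2 hFm]
    have h1 : (WA.HH h).map (mapRingHom ι) = WA.HH (h.map ι) := WA.W1P.mapXY_HH ι h
    rw [h1]
    have h2 : F.map (mapRingHom ι) = G := hFG
    rw [h2]
    exact hGd
  have hdeg : F.natDegree = G.natDegree := by
    rw [← hFG, WA.mapXY, natDegree_map_eq_of_injective hinj2]
  have hpos : 1 ≤ F.natDegree := by
    rw [hdeg, Nat.one_le_iff_ne_zero]
    intro h0
    have h1 := eq_one_of_monic_natDegree_zero hGm h0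
    rw [h1] at hGi
    exact hGi.not_isUnit isUnit_one
  refine ⟨F, F.natDegree, ⟨hFm, rfl, hpos, ?_, hdvd⟩, ?_, ?_⟩
  · intro i hi
    exact WA.W1P.tdeg_of_dvd hk rfl hdvd i hi
  · have h1 := natDegree_le_of_dvd hdvd (WA.W1P.HH_ne_zero hk)
    rwa [WA.W1P.natDegree_HH hk] at h1
  · rw [hFG]; exact hGi

end Vale.Agent.P042.WG
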